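import Vale.Agent.Lib.P310F.R.Spoiler

set_option linter.unusedSectionVars false

namespace Vale.Agent.Lib.P310F.R

open Finset

section Generic

variable {BV Pr : Type} [Fintype BV] [DecidableEq BV] [Fintype Pr] [DecidableEq Pr]
  [NumE (BV ⊕ Pr)]
variable {B : SimpleGraph BV} [DecidableRel B.Adj] {Fr : Pr → Finset (Sym2 BV)}

/-- A classwise translation gives a bijection of vertex sets. -/
noncomputable def vtEquiv {t t' : BV → ZMod 2} (φ : BV ⊕ Pr → Sym2 BV → ZMod 2)
    (h : ∀ v, t' v = t v + bd B (φ (Sum.inl v)) v) : VT B Fr t ≃ VT B Fr t' where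
  toFun a := ⟨trA B Fr (φ a.1.1.1) a.1,
    parity_trN B Fr t t' _ _ (fun v hv => by rw [hv]; exact h v) a.2.1, a.2.2⟩
  invFun b := ⟨trA B Fr (φ b.1.1.1) b.1,
    parity_trN B Fr t' t _ _ (fun v hv => by rw [hv, h v, zmod2_add_add_self]) b.2.1, b.2.2⟩
  left_inv a := Subtype.ext (trA_trA B Fr _ a.1)
  right_inv b := Subtype.ext (trA_trA B Fr _ b.1)

lemma card_VT_le (t : BV → ZMod 2) :
    Fintype.card (VT B Fr t) ≤ Fintype.card (Node B Fr) * (pendMax B Fr + 1) := by
  have h := Fintype.card_le_of_injective (fun a : VT B Fr t => a.1) Subtype.val_injective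
  simpa [Fintype.card_prod] using h

omit [NumE (BV ⊕ Pr)] in
lemma card_Node :
    Fintype.card (Node B Fr) = ∑ c : BV ⊕ Pr, 2 ^ (edgesOf B Fr c).card := by
  rw [Fintype.card_sigma]
  apply Finset.sum_congr rfl
  intro c _
  rw [Fintype.card_fun, ZMod.card, Fintype.card_coe]

end Generic

end Vale.Agent.Lib.P310F.R
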