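import Vale.Agent.Lib.P310F.R.CADefs

/-!
The cellular automaton of a deterministic single-tape Turing machine.
-/

namespace Vale.Agent.Lib.P310F

namespace DTM

variable {Q Γ : Type} (M : DTM Q Γ)

/-- The alphabet of the tableau: a tape symbol and possibly the state of the head. -/
abbrev TSg (Q Γ : Type) : Type := Γ × Option Q

/-- The state arriving from the left neighbor. -/
def fromL (a : TSg Q Γ) : Option Q :=
  a.2.bind fun q => if (M.δ q a.1).2.2 = true then some (M.δ q a.1).1 else none

/-- The state arriving from the right neighbor. -/
def fromR (c : TSg Q Γ) : Option Q :=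
  c.2.bind fun q => if (M.δ q c.1).2.2 = true then none else some (M.δ q c.1).1

/-- The next letter of a cell, from the letters of the cell and its two neighbors. -/
def caRule (a b c : TSg Q Γ) : TSg Q Γ :=
  (match b.2 with
    | some q => (M.δ q b.1).2.1
    | none => b.1,
   (M.fromL a).orElse fun _ => M.fromR c)

/-- The input row of the tableau, given on the first `n` cells. -/
def xinC {n : ℕ} (x : Fin n → Γ) : Fin n → TSg Q Γ :=
  fun d => (x d, if d.val = 0 then some M.start else none)

/-- The blank cell. -/
def blC : TSg Q Γ := (M.blank, none)

/-- A cell carrying the head in the accepting state. -/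
def accC (s : TSg Q Γ) : Prop := s.2 = some M.acc

end DTM


end Vale.Agent.Lib.P310F
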